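import Vale.Agent.P318.H766.CosTaylor

/-! One-bucket estimate: `k`-wise independent signs fool `cos (β + ⟨a, z⟩)`. -/

namespace Vale.Agent.P318.H766

open Finset

variable {X : Type*} [Fintype X] [DecidableEq X]

/-- points met an odd number of times -/
def oddset {j : ℕ} (f : Fin j → X) : Finset X :=
  univ.filter fun x => Odd (univ.filter fun i => f i = x).card

lemma card_oddset_le {j : ℕ} (f : Fin j → X) : (oddset f).card ≤ j := by
  have h : oddset f ⊆ univ.image f := by
    intro x hx
    simp only [oddset, mem_filter, mem_univ, true_and] at hx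
    obtain ⟨i, hi⟩ : (univ.filter fun i => f i = x).Nonempty := by
      rw [Finset.nonempty_iff_ne_empty]
      intro h0
      rw [h0] at hx
      simp at hx
    simp only [mem_filter, mem_univ, true_and] at hi
    exact mem_image.2 ⟨i, mem_univ _, hi⟩
  calc (oddset f).card ≤ (univ.image f).card := card_le_card h
    _ ≤ (univ : Finset (Fin j)).card := card_image_le
    _ = j := by simp

lemma prod_sign {j : ℕ} (f : Fin j → X) (y : X → ℝ) (hy : ∀ x, y x ^ 2 = 1) :
    ∏ i, y (f i) = ∏ x ∈ oddset f, y x := by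
  have h1 : ∏ i, y (f i) = ∏ x, y x ^ (univ.filter fun i => f i = x).card := by
    rw [← Finset.prod_fiberwise univ f]
    refine Finset.prod_congr rfl fun x _ => ?_
    rw [Finset.prod_congr rfl (g := fun _ => y x)]
    · simp
    · intro i hi; rw [(mem_filter.1 hi).2]
  rw [h1, oddset, Finset.prod_filter]
  refine Finset.prod_congr rfl fun x _ => ?_
  have hpow : ∀ m : ℕ, y x ^ m = if Odd m then y x else 1 := by
    intro m
    rcases Nat.even_or_odd m with h | h
    · obtain ⟨r, hr⟩ := h
      have : ¬ Odd m := by rw [Nat.not_odd_iff_even]; exact ⟨r, hr⟩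
      rw [if_neg this, hr, ← two_mul, pow_mul, hy, one_pow]
    · rw [if_pos h]
      obtain ⟨r, hr⟩ := h
      rw [hr, pow_succ, pow_mul, hy, one_pow, one_mul]
  exact hpow _

/-- the linear form -/
def lin (a : X → ℝ) (y : X → ℝ) : ℝ := ∑ x, a x * y x

lemma lin_pow (a y : X → ℝ) (hy : ∀ x, y x ^ 2 = 1) (j : ℕ) :
    lin a y ^ j = ∑ f : Fin j → X, (∏ i, a (f i)) * ∏ x ∈ oddset f, y x := by
  have h1 : lin a y ^ j = ∏ _i : Fin j, ∑ x, a x * y x := by simp [lin]
  rw [h1, Finset.prod_univ_sum, Fintype.piFinset_univ]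
  refine Finset.sum_congr rfl fun f _ => ?_
  rw [Finset.prod_mul_distrib, prod_sign f y hy]

/-- the signs `y ω x`, `ω ∈ Ω` uniform, are `k`-wise independent -/
structure KWise {Ω : Type*} [Fintype Ω] (k : ℕ) (y : Ω → X → ℝ) : Prop where
  sq : ∀ ω x, y ω x ^ 2 = 1
  zero : ∀ U : Finset X, U.Nonempty → U.card ≤ k → avg (fun ω => ∏ x ∈ U, y ω x) = 0

variable {Ω : Type*} [Fintype Ω] [Nonempty Ω]

/-- moments of order at most `k` -/
lemma KWise.moment {k : ℕ} {y : Ω → X → ℝ} (h : KWise k y) (a : X → ℝ) {j : ℕ} (hj : j ≤ k) :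
    avg (fun ω => lin a (y ω) ^ j)
      = ∑ f : Fin j → X, (∏ i, a (f i)) * if oddset f = ∅ then 1 else 0 := by
  have h1 : (fun ω => lin a (y ω) ^ j)
      = fun ω => ∑ f : Fin j → X, (∏ i, a (f i)) * ∏ x ∈ oddset f, y ω x := by
    funext ω; exact lin_pow a (y ω) (h.sq ω) j
  rw [h1, avg_sum]
  refine Finset.sum_congr rfl fun f _ => ?_
  rw [avg_mul_left]
  congr 1
  by_cases h0 : oddset f = ∅
  · simp [h0, avg_const]
  · rw [if_neg h0]
    exact h.zero _ (Finset.nonempty_iff_ne_empty.2 h0) ((card_oddset_le f).trans hj)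

/-- averages of products over the cube -/
lemma avg_cube_prod (F : X → Bool → ℝ) :
    avg (fun z : X → Bool => ∏ x, F x (z x)) = ∏ x, avg (F x) := by
  unfold avg
  rw [Finset.prod_div_distrib]
  congr 1
  · rw [Finset.prod_univ_sum, Fintype.piFinset_univ]
  · simp

lemma avg_bool (f : Bool → ℝ) : avg f = (f true + f false) / 2 := by
  simp [avg]

/-- the cube is `k`-wise independent for all `k` -/
lemma kwise_cube (k : ℕ) : KWise k (fun z : X → Bool => spt z) := by
  constructor
  · intro z x
    cases h : z x <;> simp [spt, sg, h]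
  · intro U hU _
    obtain ⟨x0, hx0⟩ := hU
    let F : X → Bool → ℝ := fun x b => if x ∈ U then sg b else 1
    have h1 : (fun z : X → Bool => ∏ x ∈ U, spt z x)
        = fun z => ∏ x, F x (z x) := by
      funext z
      have h2 : ∏ x, F x (z x) = ∏ x, if x ∈ U then spt z x else 1 := rfl
      rw [h2, ← Finset.prod_filter]
      congr 1
      ext x; simp
    rw [h1, avg_cube_prod F]
    refine Finset.prod_eq_zero (mem_univ x0) ?_
    rw [avg_bool]; simp [F, hx0]

/-- sub-Gaussian moment generating function on the cube -/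
lemma avg_cosh_le (a : X → ℝ) (s : ℝ) :
    avg (fun z : X → Bool => Real.cosh (s * lin a (spt z)))
      ≤ Real.exp (s ^ 2 * (∑ x, a x ^ 2) / 2) := by
  have hexp : ∀ r : ℝ, avg (fun z : X → Bool => Real.exp (r * lin a (spt z)))
      = ∏ x, Real.cosh (r * a x) := by
    intro r
    let F : X → Bool → ℝ := fun x b => Real.exp (r * (a x * sg b))
    have h1 : (fun z : X → Bool => Real.exp (r * lin a (spt z)))
        = fun z => ∏ x, F x (z x) := by
      funext z
      rw [lin, Finset.mul_sum, Real.exp_sum]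
      rfl
    rw [h1, avg_cube_prod F]
    refine Finset.prod_congr rfl fun x _ => ?_
    rw [avg_bool, Real.cosh_eq]
    simp only [F, sg_true, sg_false, mul_one, mul_neg]
    rw [add_comm]
  have h2 : (fun z : X → Bool => Real.cosh (s * lin a (spt z)))
      = fun z => (1 / 2) * Real.exp (s * lin a (spt z)) + (1 / 2) * Real.exp ((-s) * lin a (spt z)) := by
    funext z
    rw [Real.cosh_eq, neg_mul]; ring
  rw [h2, avg_add, avg_mul_left, avg_mul_left, hexp, hexp]
  have h3 : ∏ x, Real.cosh (-s * a x) = ∏ x, Real.cosh (s * a x) := by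
    refine Finset.prod_congr rfl fun x _ => ?_
    rw [neg_mul, Real.cosh_neg]
  rw [h3]
  have h4 : ∏ x, Real.cosh (s * a x) ≤ Real.exp (s ^ 2 * (∑ x, a x ^ 2) / 2) := by
    calc ∏ x, Real.cosh (s * a x) ≤ ∏ x, Real.exp ((s * a x) ^ 2 / 2) :=
          Finset.prod_le_prod (fun x _ => (Real.cosh_pos _).le) fun x _ =>
            Real.cosh_le_exp_half_sq _
      _ = Real.exp (s ^ 2 * (∑ x, a x ^ 2) / 2) := by
          rw [← Real.exp_sum]
          congr 1
          rw [Finset.mul_sum, Finset.sum_div]
          exact Finset.sum_congr rfl fun x _ => by ring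
  linarith

lemma even_pow_div_factorial_le_cosh (r : ℕ) (u : ℝ) :
    u ^ (2 * r) / (2 * r).factorial ≤ Real.cosh u := by
  have h := Real.hasSum_cosh u
  exact le_hasSum h r fun j _ => by
    rw [pow_mul]; positivity

/-- even moments on the cube -/
lemma avg_pow_le (a : X → ℝ) (r : ℕ) (hr : 1 ≤ r) (A : ℝ) (hA : 0 < A)
    (hAa : ∑ x, a x ^ 2 ≤ A) :
    avg (fun z : X → Bool => lin a (spt z) ^ (2 * r) / (2 * r).factorial)
      ≤ (Real.exp 1 * A / (2 * r)) ^ r := by
  have hr0 : (0:ℝ) < r := by exact_mod_cast hr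
  set s := Real.sqrt (2 * r / A) with hs
  have hs2 : s ^ 2 = 2 * r / A := Real.sq_sqrt (by positivity)
  have hspos : 0 < s := Real.sqrt_pos.2 (by positivity)
  have h1 : ∀ z : X → Bool, lin a (spt z) ^ (2 * r) / (2 * r).factorial
      ≤ (A / (2 * r)) ^ r * Real.cosh (s * lin a (spt z)) := by
    intro z
    have h2 := even_pow_div_factorial_le_cosh r (s * lin a (spt z))
    have h3 : (s * lin a (spt z)) ^ (2 * r) = (2 * r / A) ^ r * lin a (spt z) ^ (2 * r) := by
      rw [mul_pow, pow_mul s, hs2]
    rw [h3] at h2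
    have h4 : (A / (2 * r)) ^ r * (2 * r / A) ^ r = 1 := by
      rw [← mul_pow]
      have : A / (2 * r) * (2 * r / A) = 1 := by field_simp
      rw [this, one_pow]
    have h5 : (0:ℝ) ≤ (A / (2 * r)) ^ r := by positivity
    calc lin a (spt z) ^ (2 * r) / (2 * r).factorial
        = (A / (2 * r)) ^ r * ((2 * r / A) ^ r * lin a (spt z) ^ (2 * r) / (2 * r).factorial) := by
          rw [mul_div_assoc, ← mul_assoc, h4, one_mul]
      _ ≤ (A / (2 * r)) ^ r * Real.cosh (s * lin a (spt z)) := mul_le_mul_of_nonneg_left h2 h5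
  refine (avg_mono h1).trans ?_
  rw [avg_mul_left]
  have h6 := avg_cosh_le a s
  have h7 : Real.exp (s ^ 2 * (∑ x, a x ^ 2) / 2) ≤ Real.exp 1 ^ r := by
    rw [← Real.exp_nat_mul, hs2]
    apply Real.exp_le_exp.2
    have : 2 * r / A * (∑ x, a x ^ 2) ≤ 2 * r / A * A :=
      mul_le_mul_of_nonneg_left hAa (by positivity)
    have h8 : 2 * r / A * A = 2 * r := by field_simp
    rw [h8] at this
    linarith
  have h9 : (0:ℝ) ≤ (A / (2 * r)) ^ r := by positivity
  calc (A / (2 * r)) ^ r * avg (fun z : X → Bool => Real.cosh (s * lin a (spt z)))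
      ≤ (A / (2 * r)) ^ r * Real.exp 1 ^ r := mul_le_mul_of_nonneg_left (h6.trans h7) h9
    _ = (Real.exp 1 * A / (2 * r)) ^ r := by rw [← mul_pow]; congr 1; ring

lemma abs_avg_cos_le_one {α : Type*} [Fintype α] [Nonempty α] (F : α → ℝ) :
    |avg (fun ω => Real.cos (F ω))| ≤ 1 := by
  refine (abs_avg_le _).trans ?_
  refine (avg_mono (g := fun _ => (1:ℝ)) fun ω => Real.abs_cos_le_one _).trans ?_
  rw [avg_const]

lemma avg_cos_taylor {α : Type*} [Fintype α] [Nonempty α] (k : ℕ) (β : ℝ) (F : α → ℝ) :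
    avg (fun ω => Real.cos (β + F ω)) = avg (fun ω => rem k β (F ω))
      + ∑ j ∈ range k, Real.cos (β + j * (Real.pi / 2)) / j.factorial
        * avg (fun ω => F ω ^ j) := by
  have e : (fun ω => Real.cos (β + F ω)) = fun ω => rem k β (F ω)
      + ∑ j ∈ range k, (Real.cos (β + j * (Real.pi / 2)) / j.factorial) * F ω ^ j := by
    funext ω
    rw [rem]
    have : ∑ j ∈ range k, Real.cos (β + j * (Real.pi / 2)) * (F ω ^ j / j.factorial)
        = ∑ j ∈ range k, (Real.cos (β + j * (Real.pi / 2)) / j.factorial) * F ω ^ j :=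
      Finset.sum_congr rfl fun j _ => by ring
    rw [this]; ring
  rw [e, avg_add, avg_sum]
  congr 1
  refine Finset.sum_congr rfl fun j _ => ?_
  rw [avg_mul_left]

/-- **One-bucket estimate.** -/
theorem bucket {k : ℕ} (hk : Even k) (hk2 : 2 ≤ k) {y : Ω → X → ℝ} (h : KWise k y)
    (a : X → ℝ) (β : ℝ) :
    |avg (fun ω => Real.cos (β + lin a (y ω))) - avg (fun z : X → Bool => Real.cos (β + lin a (spt z)))|
      ≤ 2 * Real.exp 1 * (∑ x, a x ^ 2) / k := by
  set A := ∑ x, a x ^ 2 with hA
  have hA0 : 0 ≤ A := Finset.sum_nonneg fun _ _ => sq_nonneg _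
  have hkr : (0:ℝ) < k := by exact_mod_cast (by omega : 0 < k)
  rcases lt_or_ge (k:ℝ) (Real.exp 1 * A) with hbig | hsmall
  · have h1 := abs_avg_cos_le_one (fun ω => β + lin a (y ω))
    have h2 := abs_avg_cos_le_one (fun z : X → Bool => β + lin a (spt z))
    have h3 : 2 ≤ 2 * Real.exp 1 * A / k := by
      rw [le_div_iff₀ hkr]; nlinarith
    have h4 := abs_sub (avg (fun ω => Real.cos (β + lin a (y ω))))
      (avg (fun z : X → Bool => Real.cos (β + lin a (spt z))))
    linarith
  · rcases hA0.eq_or_lt with hz | hpos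
    · -- all coefficients vanish
      have ha : ∀ x, a x = 0 := by
        intro x
        have := (Finset.sum_eq_zero_iff_of_nonneg (fun x _ => sq_nonneg (a x))).1 hz.symm x (mem_univ x)
        exact pow_eq_zero_iff (two_ne_zero) |>.1 this
      have hl : ∀ v : X → ℝ, lin a v = 0 := by intro v; simp [lin, ha]
      simp only [hl, add_zero, avg_const, sub_self, abs_zero]
      positivity
    · obtain ⟨r, hr⟩ := hk
      have hkr2 : k = 2 * r := by omega
      have hr1 : 1 ≤ r := by omega
      rw [avg_cos_taylor k β (fun ω => lin a (y ω)),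
        avg_cos_taylor k β (fun z : X → Bool => lin a (spt z))]
      have hmom : ∀ j ≤ k, avg (fun ω => lin a (y ω) ^ j)
          = avg (fun z : X → Bool => lin a (spt z) ^ j) := by
        intro j hj
        rw [h.moment a hj, (kwise_cube k).moment a hj]
      have hsum : ∑ j ∈ range k, Real.cos (β + j * (Real.pi / 2)) / j.factorial
              * avg (fun ω => lin a (y ω) ^ j)
          = ∑ j ∈ range k, Real.cos (β + j * (Real.pi / 2)) / j.factorial
              * avg (fun z : X → Bool => lin a (spt z) ^ j) :=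
        Finset.sum_congr rfl fun j hj => by rw [hmom j (mem_range.1 hj).le]
      rw [hsum, add_sub_add_right_eq_sub]
      have hm := avg_pow_le a r hr1 A hpos le_rfl
      have habs : ∀ u : ℝ, |u| ^ k / k.factorial = u ^ (2 * r) / (2 * r).factorial := by
        intro u
        rw [hkr2, pow_mul, pow_mul, sq_abs]
      have hR1 : |avg (fun ω => rem k β (lin a (y ω)))|
          ≤ avg (fun z : X → Bool => lin a (spt z) ^ (2 * r) / (2 * r).factorial) := by
        refine (abs_avg_le _).trans ?_
        refine (avg_mono fun ω => abs_rem_le k β (lin a (y ω))).trans ?_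
        have e1 : (fun ω => |lin a (y ω)| ^ k / k.factorial)
            = fun ω => (1 / ((2 * r).factorial : ℝ)) * lin a (y ω) ^ (2 * r) := by
          funext ω; rw [habs]; ring
        have e2 : (fun z : X → Bool => lin a (spt z) ^ (2 * r) / (2 * r).factorial)
            = fun z => (1 / ((2 * r).factorial : ℝ)) * lin a (spt z) ^ (2 * r) := by
          funext z; ring
        rw [e1, e2, avg_mul_left, avg_mul_left, hmom (2 * r) (by omega)]
      have hR2 : |avg (fun z : X → Bool => rem k β (lin a (spt z)))|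
          ≤ avg (fun z : X → Bool => lin a (spt z) ^ (2 * r) / (2 * r).factorial) := by
        refine (abs_avg_le _).trans ?_
        refine (avg_mono fun ω => abs_rem_le k β (lin a (spt ω))).trans ?_
        simp only [habs]
        exact le_rfl
      have hbase : Real.exp 1 * A / (2 * r) ≤ 1 := by
        rw [div_le_one (by positivity)]
        have : (k:ℝ) = 2 * r := by rw [hkr2]; push_cast; ring
        linarith
      have hb0 : 0 ≤ Real.exp 1 * A / (2 * r) := by positivity
      have hpow : (Real.exp 1 * A / (2 * r)) ^ r ≤ Real.exp 1 * A / (2 * r) :=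
        pow_le_of_le_one hb0 hbase (by omega)
      have hfin : 2 * Real.exp 1 * A / k = 2 * (Real.exp 1 * A / (2 * r)) := by
        have : (k:ℝ) = 2 * r := by rw [hkr2]; push_cast; ring
        rw [this]; ring
      rw [hfin]
      have h4 := abs_sub (avg (fun ω => rem k β (lin a (y ω))))
        (avg (fun z : X → Bool => rem k β (lin a (spt z))))
      linarith

end Vale.Agent.P318.H766
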