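import Mathlib

/-! Uniform averages over finite types; resampling of one coordinate; multilinear polynomials. -/

namespace Vale.Agent.P318.H766

open Finset

section avg

variable {α β : Type*} [Fintype α] [Fintype β]

/-- uniform average -/
noncomputable def avg (f : α → ℝ) : ℝ := (∑ a, f a) / (Fintype.card α : ℝ)

lemma avg_add (f g : α → ℝ) : avg (fun a => f a + g a) = avg f + avg g := by
  simp [avg, Finset.sum_add_distrib, add_div]

lemma avg_sub (f g : α → ℝ) : avg (fun a => f a - g a) = avg f - avg g := by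
  simp [avg, Finset.sum_sub_distrib, sub_div]

lemma avg_neg (f : α → ℝ) : avg (fun a => - f a) = - avg f := by
  simp [avg, Finset.sum_neg_distrib, neg_div]

lemma avg_mul_left (r : ℝ) (f : α → ℝ) : avg (fun a => r * f a) = r * avg f := by
  simp [avg, ← Finset.mul_sum, mul_div_assoc]

lemma avg_mul_right (r : ℝ) (f : α → ℝ) : avg (fun a => f a * r) = avg f * r := by
  simp [avg, ← Finset.sum_mul, div_mul_eq_mul_div]

lemma avg_const [Nonempty α] (r : ℝ) : avg (fun _ : α => r) = r := by
  have : (Fintype.card α : ℝ) ≠ 0 := by exact_mod_cast Fintype.card_ne_zero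
  simp [avg, this]

lemma avg_sum {ι : Type*} (s : Finset ι) (f : ι → α → ℝ) :
    avg (fun a => ∑ i ∈ s, f i a) = ∑ i ∈ s, avg (f i) := by
  simp only [avg]
  rw [Finset.sum_comm, Finset.sum_div]

lemma avg_mono {f g : α → ℝ} (h : ∀ a, f a ≤ g a) : avg f ≤ avg g := by
  unfold avg
  exact div_le_div_of_nonneg_right (Finset.sum_le_sum fun a _ => h a) (by positivity)

lemma avg_nonneg {f : α → ℝ} (h : ∀ a, 0 ≤ f a) : 0 ≤ avg f := by
  unfold avg
  exact div_nonneg (Finset.sum_nonneg fun a _ => h a) (by positivity)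

lemma abs_avg_le (f : α → ℝ) : |avg f| ≤ avg (fun a => |f a|) := by
  unfold avg
  rw [abs_div, abs_of_nonneg (show (0:ℝ) ≤ (Fintype.card α : ℝ) by positivity)]
  exact div_le_div_of_nonneg_right (Finset.abs_sum_le_sum_abs _ _) (by positivity)

lemma avg_equiv (e : α ≃ β) (f : β → ℝ) : avg (fun a => f (e a)) = avg f := by
  unfold avg
  rw [Fintype.card_congr e, Equiv.sum_comp e f]

lemma avg_prod (f : α × β → ℝ) : avg f = avg (fun a => avg (fun b => f (a, b))) := by
  simp only [avg, Fintype.card_prod, Nat.cast_mul, Fintype.sum_prod_type]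
  rw [← Finset.sum_div, div_div, mul_comm]

lemma avg_comm (f : α → β → ℝ) :
    avg (fun a => avg (fun b => f a b)) = avg (fun b => avg (fun a => f a b)) := by
  simp only [avg]
  rw [← Finset.sum_div, ← Finset.sum_div, Finset.sum_comm, div_div, div_div, mul_comm]

/-- Cauchy–Schwarz -/
lemma avg_mul_sq_le (f g : α → ℝ) :
    (avg fun a => f a * g a) ^ 2 ≤ (avg fun a => f a ^ 2) * avg fun a => g a ^ 2 := by
  unfold avg
  rw [div_pow, div_mul_div_comm, ← sq]
  exact div_le_div_of_nonneg_right (Finset.sum_mul_sq_le_sq_mul_sq _ _ _) (by positivity)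

end avg

section coord

variable {X Ω : Type*} [Fintype X] [DecidableEq X] [Fintype Ω] [Nonempty Ω]

/-- resampling of one coordinate -/
lemma avg_resample (x : X) (F : (X → Ω) → ℝ) :
    avg F = avg (fun ω => avg (fun t => F (Function.update ω x t))) := by
  classical
  let e := Equiv.funSplitAt x Ω
  have key : ∀ (b t : Ω) (g : {j // j ≠ x} → Ω),
      Function.update (e.symm (b, g)) x t = e.symm (t, g) := by
    intro b t g
    funext j
    by_cases hj : j = x
    · subst hj; simp [e, Equiv.funSplitAt]
    · simp [e, Equiv.funSplitAt, hj]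
  have h1 : avg F = avg (fun t => avg (fun g => F (e.symm (t, g)))) := by
    rw [← avg_prod (fun p : Ω × ({j // j ≠ x} → Ω) => F (e.symm p)), avg_equiv e.symm F]
  have h2 : avg (fun ω => avg (fun t => F (Function.update ω x t)))
      = avg (fun b : Ω => avg (fun g : {j // j ≠ x} → Ω => avg (fun t => F (e.symm (t, g))))) := by
    rw [← avg_equiv e.symm (fun ω => avg (fun t => F (Function.update ω x t))), avg_prod]
    simp only [key]
  rw [h1, h2, avg_const, avg_comm]

end coord

section ev

variable {X : Type*} [Fintype X] [DecidableEq X]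

/-- value of the multilinear polynomial with coefficients `c` -/
noncomputable def ev (c : Finset X → ℝ) (y : X → ℝ) : ℝ := ∑ S, c S * ∏ x ∈ S, y x

/-- part of `c` without `x` -/
def dropc (x : X) (c : Finset X → ℝ) : Finset X → ℝ := fun S => if x ∈ S then 0 else c S

/-- coefficients of the derivative in `x` -/
def derc (x : X) (c : Finset X → ℝ) : Finset X → ℝ := fun S => if x ∈ S then 0 else c (insert x S)

lemma sum_split (x : X) (f : Finset X → ℝ) :
    ∑ S, f S = ∑ S, (if x ∈ S then 0 else f S) + ∑ S, (if x ∈ S then 0 else f (insert x S)) := by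
  classical
  have h1 : ∑ S, f S = ∑ S with x ∉ S, f S + ∑ S with ¬ (x ∉ S), f S :=
    (Finset.sum_filter_add_sum_filter_not _ _ _).symm
  rw [h1]
  congr 1
  · rw [Finset.sum_filter]
    refine Finset.sum_congr rfl fun S _ => ?_
    by_cases h : x ∈ S <;> simp [h]
  · have : ∑ S, (if x ∈ S then 0 else f (insert x S)) = ∑ S with x ∉ S, f (insert x S) := by
      rw [Finset.sum_filter]
      refine Finset.sum_congr rfl fun S _ => ?_
      by_cases h : x ∈ S <;> simp [h]
    rw [this]
    refine Finset.sum_nbij' (fun S => S.erase x) (fun S => insert x S) ?_ ?_ ?_ ?_ ?_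
    · intro S _; simp
    · intro S _; simp
    · intro S hS; simp at hS; exact Finset.insert_erase hS
    · intro S hS; simp at hS; exact Finset.erase_insert hS
    · intro S hS; simp at hS; rw [Finset.insert_erase hS]

lemma ev_split (x : X) (c : Finset X → ℝ) (y : X → ℝ) :
    ev c y = ev (dropc x c) y + y x * ev (derc x c) y := by
  unfold ev
  rw [sum_split x, Finset.mul_sum]
  congr 1
  · refine Finset.sum_congr rfl fun S _ => ?_
    by_cases h : x ∈ S <;> simp [dropc, h]
  · refine Finset.sum_congr rfl fun S _ => ?_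
    by_cases h : x ∈ S
    · simp [derc, h]
    · simp [derc, h, Finset.prod_insert h]; ring

lemma ev_update_of (x : X) (c : Finset X → ℝ) (hc : ∀ S, x ∈ S → c S = 0) (y : X → ℝ) (t : ℝ) :
    ev c (Function.update y x t) = ev c y := by
  unfold ev
  refine Finset.sum_congr rfl fun S _ => ?_
  by_cases h : x ∈ S
  · simp [hc S h]
  · congr 1
    refine Finset.prod_congr rfl fun j hj => ?_
    rw [Function.update_of_ne]
    rintro rfl; exact h hj

omit [Fintype X] in
lemma dropc_zero (x : X) (c : Finset X → ℝ) : ∀ S, x ∈ S → dropc x c S = 0 := by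
  intro S h; simp [dropc, h]

omit [Fintype X] in
lemma derc_zero (x : X) (c : Finset X → ℝ) : ∀ S, x ∈ S → derc x c S = 0 := by
  intro S h; simp [derc, h]

lemma ev_update (x : X) (c : Finset X → ℝ) (y : X → ℝ) (t : ℝ) :
    ev c (Function.update y x t) = ev (dropc x c) y + t * ev (derc x c) y := by
  rw [ev_split x, ev_update_of x _ (dropc_zero x c), ev_update_of x _ (derc_zero x c)]
  simp

lemma sumsq_split (x : X) (c : Finset X → ℝ) :
    ∑ S, c S ^ 2 = ∑ S, dropc x c S ^ 2 + ∑ S, derc x c S ^ 2 := by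
  rw [sum_split x]
  congr 1 <;>
  · refine Finset.sum_congr rfl fun S _ => ?_
    by_cases h : x ∈ S <;> simp [dropc, derc, h]

/-- weighted version: `∑ c_S^2 ρ^|S|` -/
lemma sumsq_split_pow (x : X) (c : Finset X → ℝ) (ρ : ℝ) :
    ∑ S, c S ^ 2 * ρ ^ S.card = ∑ S, dropc x c S ^ 2 * ρ ^ S.card
      + ρ * ∑ S, derc x c S ^ 2 * ρ ^ S.card := by
  rw [sum_split x, Finset.mul_sum]
  congr 1
  · refine Finset.sum_congr rfl fun S _ => ?_
    by_cases h : x ∈ S <;> simp [dropc, h]
  · refine Finset.sum_congr rfl fun S _ => ?_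
    by_cases h : x ∈ S
    · simp [derc, h]
    · simp [derc, h, Finset.card_insert_of_notMem h, pow_succ]; ring

/-- the influence of `x` -/
lemma derc_sumsq (x : X) (c : Finset X → ℝ) :
    ∑ S, derc x c S ^ 2 = ∑ S with x ∈ S, c S ^ 2 := by
  have h := sum_split x (fun S => if x ∈ S then c S ^ 2 else 0)
  rw [Finset.sum_filter, h]
  have : ∑ S, (if x ∈ S then (0:ℝ) else (if x ∈ S then c S ^ 2 else 0)) = 0 := by
    refine Finset.sum_eq_zero fun S _ => ?_
    by_cases hS : x ∈ S <;> simp [hS]
  rw [this, zero_add]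
  refine Finset.sum_congr rfl fun S _ => ?_
  by_cases hS : x ∈ S <;> simp [derc, hS]

end ev

end Vale.Agent.P318.H766
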