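import Vale.Agent.P318.H766.Avg

/-! Bonami's lemma (2 -> 4) for independent variables with fourth moments at most 9, and the
covariance of one polynomial at two coupled points. -/

namespace Vale.Agent.P318.H766

open Finset

variable {X Ω : Type*} [Fintype X] [DecidableEq X] [Fintype Ω] [Nonempty Ω]

/-- the point `y_x = g_x(ω_x)` -/
def pt (g : X → Ω → ℝ) (ω : X → Ω) : X → ℝ := fun x => g x (ω x)

omit [Fintype X] [Fintype Ω] [Nonempty Ω] in
lemma pt_update (g : X → Ω → ℝ) (ω : X → Ω) (x : X) (t : Ω) :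
    pt g (Function.update ω x t) = Function.update (pt g ω) x (g x t) := by
  funext j
  by_cases h : j = x
  · subst h; simp [pt]
  · simp [pt, Function.update_of_ne h]

omit [Fintype Ω] [Nonempty Ω] in
lemma ev_pt_update (g : X → Ω → ℝ) (c : Finset X → ℝ) (ω : X → Ω) (x : X) (t : Ω) :
    ev c (pt g (Function.update ω x t))
      = ev (dropc x c) (pt g ω) + g x t * ev (derc x c) (pt g ω) := by
  rw [pt_update, ev_update]

omit [Fintype Ω] [Nonempty Ω] [DecidableEq X] in
lemma ev_of_support_empty (c : Finset X → ℝ) (h : ∀ S, S ≠ ∅ → c S = 0) (y : X → ℝ) :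
    ev c y = c ∅ := by
  unfold ev
  rw [Finset.sum_eq_single ∅]
  · simp
  · intro S _ hS; simp [h S hS]
  · simp

omit [DecidableEq X] in
lemma sumsq_of_support_empty (c : Finset X → ℝ) (h : ∀ S, S ≠ ∅ → c S = 0) (ρ : ℝ) :
    ∑ S, c S ^ 2 * ρ ^ S.card = c ∅ ^ 2 := by
  rw [Finset.sum_eq_single ∅]
  · simp
  · intro S _ hS; simp [h S hS]
  · simp

/-- **covariance**: `E P(y) P(y') = ∑ c_S^2 ρ^|S|` if `E y = 0`, `E y' = 0`, `E y y' = ρ`. -/
theorem avg_ev_mul_ev (g g' : X → Ω → ℝ) (ρ : ℝ) (h0 : ∀ x, avg (g x) = 0)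
    (h0' : ∀ x, avg (g' x) = 0) (h2 : ∀ x, avg (fun t => g x t * g' x t) = ρ)
    (T : Finset X) : ∀ (c : Finset X → ℝ), (∀ S, ¬ S ⊆ T → c S = 0) →
    avg (fun ω => ev c (pt g ω) * ev c (pt g' ω)) = ∑ S, c S ^ 2 * ρ ^ S.card := by
  induction T using Finset.induction_on with
  | empty =>
    intro c hc
    have hc' : ∀ S, S ≠ ∅ → c S = 0 := fun S hS => hc S (by rwa [Finset.subset_empty])
    simp only [ev_of_support_empty c hc']
    rw [avg_const, sumsq_of_support_empty c hc']
    ring
  | insert x T hx ih =>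
    intro c hc
    have hd : ∀ S, ¬ S ⊆ T → dropc x c S = 0 := by
      intro S hS
      by_cases hxS : x ∈ S
      · simp [dropc, hxS]
      · simp only [dropc, hxS, if_false]
        apply hc
        intro h
        exact hS ((Finset.subset_insert_iff_of_notMem hxS).1 h)
    have he : ∀ S, ¬ S ⊆ T → derc x c S = 0 := by
      intro S hS
      by_cases hxS : x ∈ S
      · simp [derc, hxS]
      · simp only [derc, hxS, if_false]
        apply hc
        intro h
        apply hS
        have := (Finset.insert_subset_iff.1 h).2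
        exact (Finset.subset_insert_iff_of_notMem hxS).1 this
    rw [avg_resample x]
    have key : ∀ ω : X → Ω,
        avg (fun t => ev c (pt g (Function.update ω x t)) * ev c (pt g' (Function.update ω x t)))
        = ev (dropc x c) (pt g ω) * ev (dropc x c) (pt g' ω)
          + ρ * (ev (derc x c) (pt g ω) * ev (derc x c) (pt g' ω)) := by
      intro ω
      simp only [ev_pt_update]
      set a := ev (dropc x c) (pt g ω)
      set a' := ev (dropc x c) (pt g' ω)
      set b := ev (derc x c) (pt g ω)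
      set b' := ev (derc x c) (pt g' ω)
      have : (fun t => (a + g x t * b) * (a' + g' x t * b'))
          = fun t => (a * a' + a * b' * g' x t) + (a' * b * g x t + (b * b') * (g x t * g' x t)) := by
        funext t; ring
      rw [this, avg_add, avg_add, avg_add, avg_const, avg_mul_left, avg_mul_left, avg_mul_left,
        h0, h0', h2]
      ring
    simp only [key]
    rw [avg_add, avg_mul_left, ih _ hd, ih _ he, ← sumsq_split_pow]

/-- **Bonami's lemma**, `E P^4 <= 9^d (E P^2)^2` -/
theorem bonami (g : X → Ω → ℝ) (h1 : ∀ x, avg (g x) = 0)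
    (h2 : ∀ x, avg (fun t => g x t ^ 2) = 1) (h3 : ∀ x, avg (fun t => g x t ^ 3) = 0)
    (h4 : ∀ x, avg (fun t => g x t ^ 4) ≤ 9)
    (T : Finset X) : ∀ (d : ℕ) (c : Finset X → ℝ), (∀ S, ¬ S ⊆ T → c S = 0) →
    (∀ S, d < S.card → c S = 0) →
    avg (fun ω => ev c (pt g ω) ^ 4) ≤ 9 ^ d * (∑ S, c S ^ 2) ^ 2 := by
  induction T using Finset.induction_on with
  | empty =>
    intro d c hc _
    have hc' : ∀ S, S ≠ ∅ → c S = 0 := fun S hS => hc S (by rwa [Finset.subset_empty])
    have hs := sumsq_of_support_empty c hc' 1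
    simp only [one_pow, mul_one] at hs
    simp only [ev_of_support_empty c hc']
    rw [avg_const, hs]
    have h9 : (1:ℝ) ≤ 9 ^ d := one_le_pow₀ (by norm_num)
    nlinarith [sq_nonneg (c ∅ ^ 2)]
  | insert x T hx ih =>
    intro d c hc hdeg
    have hd : ∀ S, ¬ S ⊆ T → dropc x c S = 0 := by
      intro S hS
      by_cases hxS : x ∈ S
      · simp [dropc, hxS]
      · simp only [dropc, hxS, if_false]
        apply hc
        intro h
        exact hS ((Finset.subset_insert_iff_of_notMem hxS).1 h)
    have he : ∀ S, ¬ S ⊆ T → derc x c S = 0 := by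
      intro S hS
      by_cases hxS : x ∈ S
      · simp [derc, hxS]
      · simp only [derc, hxS, if_false]
        apply hc
        intro h
        apply hS
        have := (Finset.insert_subset_iff.1 h).2
        exact (Finset.subset_insert_iff_of_notMem hxS).1 this
    have hdd : ∀ S, d < S.card → dropc x c S = 0 := by
      intro S hS
      by_cases hxS : x ∈ S
      · simp [dropc, hxS]
      · simp only [dropc, hxS, if_false]; exact hdeg S hS
    have A4 := ih d _ hd hdd
    set a := ∑ S, dropc x c S ^ 2 with ha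
    set b := ∑ S, derc x c S ^ 2 with hb
    have ha0 : 0 ≤ a := Finset.sum_nonneg fun _ _ => sq_nonneg _
    have hb0 : 0 ≤ b := Finset.sum_nonneg fun _ _ => sq_nonneg _
    rw [sumsq_split x, ← ha, ← hb]
    set U : (X → Ω) → ℝ := fun ω => ev (dropc x c) (pt g ω) with hU
    set V : (X → Ω) → ℝ := fun ω => ev (derc x c) (pt g ω) with hV
    have key : avg (fun ω => ev c (pt g ω) ^ 4)
        ≤ avg (fun ω => U ω ^ 4) + 6 * avg (fun ω => U ω ^ 2 * V ω ^ 2)
          + 9 * avg (fun ω => V ω ^ 4) := by
      rw [avg_resample x]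
      have : ∀ ω : X → Ω, avg (fun t => ev c (pt g (Function.update ω x t)) ^ 4)
          ≤ U ω ^ 4 + 6 * (U ω ^ 2 * V ω ^ 2) + 9 * V ω ^ 4 := by
        intro ω
        simp only [ev_pt_update]
        have e1 : (fun t => (U ω + g x t * V ω) ^ 4)
            = fun t => (U ω ^ 4 + (4 * U ω ^ 3 * V ω) * g x t)
              + ((6 * (U ω ^ 2 * V ω ^ 2)) * g x t ^ 2
                + ((4 * U ω * V ω ^ 3) * g x t ^ 3 + V ω ^ 4 * g x t ^ 4)) := by
          funext t; ring
        have e2 : avg (fun t => (U ω + g x t * V ω) ^ 4)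
            = U ω ^ 4 + 6 * (U ω ^ 2 * V ω ^ 2) + V ω ^ 4 * avg (fun t => g x t ^ 4) := by
          rw [e1, avg_add, avg_add, avg_add, avg_add, avg_const, avg_mul_left, avg_mul_left,
            avg_mul_left, avg_mul_left, h1, h2, h3]
          ring
        have e3 : avg (fun t => (ev (dropc x c) (pt g ω) + g x t * ev (derc x c) (pt g ω)) ^ 4)
            = avg (fun t => (U ω + g x t * V ω) ^ 4) := rfl
        rw [e3, e2]
        have h5 : V ω ^ 4 * avg (fun t => g x t ^ 4) ≤ V ω ^ 4 * 9 :=
          mul_le_mul_of_nonneg_left (h4 x) (by positivity)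
        linarith
      refine (avg_mono this).trans_eq ?_
      rw [avg_add, avg_add, avg_mul_left, avg_mul_left]
    rcases Nat.eq_zero_or_pos d with h0 | hpos
    · -- degree zero: the derivative vanishes
      have hz : derc x c = fun _ => 0 := by
        funext S
        by_cases hxS : x ∈ S
        · simp [derc, hxS]
        · simp only [derc, hxS, if_false]
          apply hdeg
          rw [h0, Finset.card_insert_of_notMem hxS]; omega
      have hV0 : ∀ ω, V ω = 0 := by
        intro ω; simp [hV, hz, ev]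
      have hb' : b = 0 := by simp [hb, hz]
      simp only [hV0] at key
      rw [hb']
      have z1 : avg (fun ω : X → Ω => U ω ^ 2 * (0:ℝ) ^ 2) = 0 := by simp [avg]
      have z2 : avg (fun _ω : X → Ω => (0:ℝ) ^ 4) = 0 := by simp [avg]
      rw [z1, z2] at key
      simpa using key.trans (by simpa using A4)
    · obtain ⟨e, rfl⟩ : ∃ e, d = e + 1 := ⟨d - 1, by omega⟩
      have hde : ∀ S, e < S.card → derc x c S = 0 := by
        intro S hS
        by_cases hxS : x ∈ S
        · simp [derc, hxS]
        · simp only [derc, hxS, if_false]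
          apply hdeg
          rw [Finset.card_insert_of_notMem hxS]; omega
      have B4 := ih e _ he hde
      have hA : avg (fun ω => U ω ^ 4) ≤ 9 ^ (e+1) * a ^ 2 := A4
      have hB : avg (fun ω => V ω ^ 4) ≤ 9 ^ e * b ^ 2 := B4
      have hA0 : 0 ≤ avg (fun ω => U ω ^ 4) := avg_nonneg fun ω => by positivity
      have hB0 : 0 ≤ avg (fun ω => V ω ^ 4) := avg_nonneg fun ω => by positivity
      have hC : (avg fun ω => U ω ^ 2 * V ω ^ 2) ≤ 3 * 9 ^ e * (a * b) := by
        have cs := avg_mul_sq_le (fun ω => U ω ^ 2) (fun ω => V ω ^ 2)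
        have e1 : (fun ω => (U ω ^ 2) ^ 2) = fun ω => U ω ^ 4 := by funext ω; ring
        have e2 : (fun ω => (V ω ^ 2) ^ 2) = fun ω => V ω ^ 4 := by funext ω; ring
        simp only [e1, e2] at cs
        have h9 : (0:ℝ) < 9 ^ e := by positivity
        have : (avg fun ω => U ω ^ 2 * V ω ^ 2) ^ 2 ≤ (3 * 9 ^ e * (a * b)) ^ 2 := by
          refine cs.trans ?_
          calc avg (fun ω => U ω ^ 4) * avg (fun ω => V ω ^ 4)
              ≤ (9 ^ (e+1) * a ^ 2) * (9 ^ e * b ^ 2) :=
                mul_le_mul hA hB hB0 (by positivity)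
            _ = (3 * 9 ^ e * (a * b)) ^ 2 := by rw [pow_succ]; ring
        exact (abs_le_of_sq_le_sq' this (by positivity)).2
      have h9 : (0:ℝ) < 9 ^ e := by positivity
      calc avg (fun ω => ev c (pt g ω) ^ 4)
          ≤ avg (fun ω => U ω ^ 4) + 6 * avg (fun ω => U ω ^ 2 * V ω ^ 2)
            + 9 * avg (fun ω => V ω ^ 4) := key
        _ ≤ 9 ^ (e+1) * a ^ 2 + 6 * (3 * 9 ^ e * (a * b)) + 9 * (9 ^ e * b ^ 2) := by linarith
        _ = 9 ^ (e+1) * (a + b) ^ 2 := by rw [pow_succ]; ring

end Vale.Agent.P318.H766
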