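import Vale.Agent.P318.H766.RotMain

/-! Taylor expansion of `cos (β + u)` with sharp remainder. -/

namespace Vale.Agent.P318.H766

open Finset

/-- Taylor remainder of `u ↦ cos (β + u)` of order `n` -/
noncomputable def rem (n : ℕ) (β u : ℝ) : ℝ :=
  Real.cos (β + u) - ∑ j ∈ range n, Real.cos (β + j * (Real.pi / 2)) * (u ^ j / j.factorial)

lemma hasDerivAt_powfac (n : ℕ) (u : ℝ) :
    HasDerivAt (fun t : ℝ => t ^ (n + 1) / (n + 1).factorial) (u ^ n / n.factorial) u := by
  have := (hasDerivAt_pow (n + 1) u).div_const ((n + 1).factorial : ℝ)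
  refine this.congr_deriv ?_
  rw [Nat.factorial_succ, show n + 1 - 1 = n by omega]
  push_cast
  have : ((n:ℝ) + 1) ≠ 0 := by positivity
  have h5 : (n.factorial : ℝ) ≠ 0 := by positivity
  field_simp

lemma rem_neg (n : ℕ) (β u : ℝ) : rem n β (-u) = rem n (-β) u := by
  unfold rem
  congr 1
  · rw [← Real.cos_neg]; congr 1; ring
  · refine Finset.sum_congr rfl fun j _ => ?_
    have h : Real.cos (-β + j * (Real.pi / 2)) = (-1) ^ j * Real.cos (β + j * (Real.pi / 2)) := by
      have h1 : -β + j * (Real.pi / 2) = -(β + j * (Real.pi / 2) - j * Real.pi) := by ring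
      rw [h1, Real.cos_neg, Real.cos_sub_nat_mul_pi]
    rw [h, neg_pow]; ring

lemma hasDerivAt_rem (n : ℕ) (β u : ℝ) :
    HasDerivAt (fun t => rem (n + 1) β t) (rem n (β + Real.pi / 2) u) u := by
  unfold rem
  have h1 : HasDerivAt (fun t => Real.cos (β + t)) (Real.cos (β + Real.pi / 2 + u)) u := by
    have := (Real.hasDerivAt_cos (β + u)).comp_const_add β u
    refine this.congr_deriv ?_
    rw [show β + Real.pi / 2 + u = (β + u) + Real.pi / 2 by ring, Real.cos_add_pi_div_two]
  have h2 : HasDerivAt (fun t => ∑ j ∈ range (n + 1),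
      Real.cos (β + j * (Real.pi / 2)) * (t ^ j / j.factorial))
      (∑ j ∈ range n, Real.cos (β + Real.pi / 2 + j * (Real.pi / 2)) * (u ^ j / j.factorial)) u := by
    have h3 : (fun t : ℝ => ∑ j ∈ range (n + 1),
        Real.cos (β + j * (Real.pi / 2)) * (t ^ j / j.factorial))
        = fun t => (∑ j ∈ range n, Real.cos (β + (j + 1 : ℕ) * (Real.pi / 2))
          * (t ^ (j + 1) / (j + 1).factorial)) + Real.cos β := by
      funext t
      rw [Finset.sum_range_succ']
      simp
    rw [h3]
    apply HasDerivAt.add_const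
    apply HasDerivAt.fun_sum
    intro j _
    have h4 : HasDerivAt (fun t : ℝ => t ^ (j + 1) / (j + 1).factorial) (u ^ j / j.factorial) u := by
      exact hasDerivAt_powfac j u
    have h6 : β + Real.pi / 2 + j * (Real.pi / 2) = β + ((j + 1 : ℕ) : ℝ) * (Real.pi / 2) := by
      push_cast; ring
    rw [h6]
    exact h4.const_mul _
  exact h1.sub h2

lemma rem_zero_right (n : ℕ) (β : ℝ) : rem (n + 1) β 0 = 0 := by
  unfold rem
  rw [Finset.sum_range_succ']
  simp

lemma mono_of_hasDeriv {f f' : ℝ → ℝ} (h : ∀ t, HasDerivAt f (f' t) t)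
    (h0 : ∀ t, 0 ≤ t → 0 ≤ f' t) {u : ℝ} (hu : 0 ≤ u) : f 0 ≤ f u := by
  have hm : MonotoneOn f (Set.Ici 0) := by
    refine monotoneOn_of_deriv_nonneg (convex_Ici 0)
      (fun t _ => (h t).continuousAt.continuousWithinAt)
      (fun t _ => (h t).differentiableAt.differentiableWithinAt) ?_
    intro t ht
    rw [interior_Ici] at ht
    rw [(h t).deriv]
    exact h0 t (le_of_lt ht)
  exact hm (Set.mem_Ici.2 le_rfl) (Set.mem_Ici.2 hu) hu

lemma abs_rem_le_of_nonneg (n : ℕ) : ∀ (β u : ℝ), 0 ≤ u → |rem n β u| ≤ u ^ n / n.factorial := by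
  induction n with
  | zero =>
    intro β u _
    simp [rem, Real.abs_cos_le_one]
  | succ n ih =>
    intro β u hu
    rw [abs_le]
    constructor
    · have h := mono_of_hasDeriv
        (f := fun t => rem (n + 1) β t + t ^ (n + 1) / (n + 1).factorial)
        (f' := fun t => rem n (β + Real.pi / 2) t + t ^ n / n.factorial)
        (fun t => (hasDerivAt_rem n β t).add (hasDerivAt_powfac n t))
        (fun t ht => by
          have := (abs_le.1 (ih (β + Real.pi / 2) t ht)).1
          linarith) hu
      simp only [rem_zero_right] at h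
      have h0 : (0:ℝ) ^ (n + 1) / (n + 1).factorial = 0 := by simp
      rw [h0] at h
      linarith
    · have h := mono_of_hasDeriv
        (f := fun t => t ^ (n + 1) / (n + 1).factorial - rem (n + 1) β t)
        (f' := fun t => t ^ n / n.factorial - rem n (β + Real.pi / 2) t)
        (fun t => (hasDerivAt_powfac n t).sub (hasDerivAt_rem n β t))
        (fun t ht => by
          have := (abs_le.1 (ih (β + Real.pi / 2) t ht)).2
          linarith) hu
      simp only [rem_zero_right] at h
      have h0 : (0:ℝ) ^ (n + 1) / (n + 1).factorial = 0 := by simp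
      rw [h0] at h
      linarith

/-- sharp remainder bound -/
theorem abs_rem_le (n : ℕ) (β u : ℝ) : |rem n β u| ≤ |u| ^ n / n.factorial := by
  rcases le_total 0 u with hu | hu
  · rw [abs_of_nonneg hu]; exact abs_rem_le_of_nonneg n β u hu
  · have h := abs_rem_le_of_nonneg n (-β) (-u) (by linarith)
    rw [← rem_neg, neg_neg] at h
    rwa [abs_of_nonpos hu]

end Vale.Agent.P318.H766
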