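import Vale.Agent.P318.H766.Bonami

/-! Lindeberg replacement for characters `cos (β + ξ P)`. -/

namespace Vale.Agent.P318.H766

open Finset

/-- a symmetric normalised law with fourth moment at most 9 -/
structure Good {Ω : Type*} [Fintype Ω] (g : Ω → ℝ) : Prop where
  mean : avg g = 0
  sq : avg (fun t => g t ^ 2) = 1
  cube : avg (fun t => g t ^ 3) = 0
  four : avg (fun t => g t ^ 4) ≤ 9
  sin : ∀ b : ℝ, avg (fun t => Real.sin (b * g t)) = 0

lemma abs_cos_sub_le (u : ℝ) : |Real.cos u - (1 - u ^ 2 / 2)| ≤ u ^ 4 / 2 := by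
  rcases le_total |u| 1 with h | h
  · refine (Real.cos_bound h).trans ?_
    have : |u| ^ 4 = u ^ 4 := by
      rw [show (4:ℕ) = 2 * 2 by norm_num, pow_mul, pow_mul, sq_abs]
    rw [this]
    have : 0 ≤ u ^ 4 := by positivity
    linarith
  · have h1 := Real.one_sub_sq_div_two_le_cos (x := u)
    have h2 := Real.cos_le_one u
    have h3 : 1 ≤ u ^ 2 := by
      rw [← sq_abs]; nlinarith [abs_nonneg u]
    rw [abs_of_nonneg (by linarith)]
    nlinarith

variable {Ω : Type*} [Fintype Ω] [Nonempty Ω]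

lemma Good.cos_diff {g g' : Ω → ℝ} (hg : Good g) (hg' : Good g') (s : ℝ) :
    |avg (fun t => Real.cos (s * g t)) - avg (fun t => Real.cos (s * g' t))| ≤ 9 * s ^ 4 := by
  have main : ∀ {h : Ω → ℝ}, Good h →
      |avg (fun t => Real.cos (s * h t)) - (1 - s ^ 2 / 2)| ≤ 9 / 2 * s ^ 4 := by
    intro h hh
    have e : avg (fun t => Real.cos (s * h t)) - (1 - s ^ 2 / 2)
        = avg (fun t => Real.cos (s * h t) - (1 - (s * h t) ^ 2 / 2)) := by
      rw [avg_sub]
      congr 1
      have : (fun t => 1 - (s * h t) ^ 2 / 2) = fun t => 1 - (s ^ 2 / 2) * h t ^ 2 := by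
        funext t; ring
      rw [this, avg_sub, avg_const, avg_mul_left, hh.sq]
      ring
    rw [e]
    refine (abs_avg_le _).trans ?_
    refine (avg_mono fun t => abs_cos_sub_le (s * h t)).trans ?_
    have : (fun t => (s * h t) ^ 4 / 2) = fun t => (s ^ 4 / 2) * h t ^ 4 := by
      funext t; ring
    rw [this, avg_mul_left]
    have h4 := hh.four
    have : s ^ 4 / 2 * avg (fun t => h t ^ 4) ≤ s ^ 4 / 2 * 9 :=
      mul_le_mul_of_nonneg_left h4 (by positivity)
    linarith
  have h1 := main hg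
  have h2 := main hg'
  rw [abs_le] at *
  constructor <;> linarith [h1.1, h1.2, h2.1, h2.2]

variable {X : Type*} [Fintype X] [DecidableEq X]

omit [Nonempty Ω] in
/-- `avg_t cos(β + ξ (a + g t b)) = cos(β + ξ a) * avg_t cos (ξ b g t)` for a symmetric law -/
lemma Good.avg_cos {g : Ω → ℝ} (hg : Good g) (β ξ a b : ℝ) :
    avg (fun t => Real.cos (β + ξ * (a + g t * b)))
      = Real.cos (β + ξ * a) * avg (fun t => Real.cos ((ξ * b) * g t)) := by
  have : (fun t => Real.cos (β + ξ * (a + g t * b)))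
      = fun t => Real.cos (β + ξ * a) * Real.cos ((ξ * b) * g t)
        - Real.sin (β + ξ * a) * Real.sin ((ξ * b) * g t) := by
    funext t
    rw [← Real.cos_add]
    congr 1; ring
  rw [this, avg_sub, avg_mul_left, avg_mul_left, hg.sin, mul_zero, sub_zero]

/-- one replacement -/
theorem swap_one (g g' : X → Ω → ℝ) (x : X) (hoff : ∀ j, j ≠ x → g j = g' j)
    (hg : ∀ j, Good (g j)) (hg' : ∀ j, Good (g' j)) (d : ℕ) (c : Finset X → ℝ)
    (hdeg : ∀ S, d < S.card → c S = 0) (β ξ : ℝ) :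
    |avg (fun ω => Real.cos (β + ξ * ev c (pt g ω)))
      - avg (fun ω => Real.cos (β + ξ * ev c (pt g' ω)))|
      ≤ 9 * ξ ^ 4 * 9 ^ d * (∑ S, derc x c S ^ 2) ^ 2 := by
  rw [avg_resample x (fun ω => Real.cos (β + ξ * ev c (pt g ω))),
    avg_resample x (fun ω => Real.cos (β + ξ * ev c (pt g' ω))), ← avg_sub]
  have hA : ∀ ω, ev (dropc x c) (pt g' ω) = ev (dropc x c) (pt g ω) := by
    intro ω
    have : pt g' ω = Function.update (pt g ω) x (g' x (ω x)) := by
      funext j
      by_cases h : j = x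
      · subst h; simp [pt]
      · simp [pt, Function.update_of_ne h, hoff j h]
    rw [this, ev_update_of x _ (dropc_zero x c)]
  have hB : ∀ ω, ev (derc x c) (pt g' ω) = ev (derc x c) (pt g ω) := by
    intro ω
    have : pt g' ω = Function.update (pt g ω) x (g' x (ω x)) := by
      funext j
      by_cases h : j = x
      · subst h; simp [pt]
      · simp [pt, Function.update_of_ne h, hoff j h]
    rw [this, ev_update_of x _ (derc_zero x c)]
  simp only [ev_pt_update, hA, hB, (hg x).avg_cos, (hg' x).avg_cos]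
  refine (abs_avg_le _).trans ?_
  have step : ∀ ω, |Real.cos (β + ξ * ev (dropc x c) (pt g ω))
        * avg (fun t => Real.cos (ξ * ev (derc x c) (pt g ω) * g x t))
      - Real.cos (β + ξ * ev (dropc x c) (pt g ω))
        * avg (fun t => Real.cos (ξ * ev (derc x c) (pt g ω) * g' x t))|
      ≤ (9 * ξ ^ 4) * ev (derc x c) (pt g ω) ^ 4 := by
    intro ω
    rw [← mul_sub, abs_mul]
    have h1 := Real.abs_cos_le_one (β + ξ * ev (dropc x c) (pt g ω))
    have h2 := (hg x).cos_diff (hg' x) (ξ * ev (derc x c) (pt g ω))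
    calc _ ≤ 1 * (9 * (ξ * ev (derc x c) (pt g ω)) ^ 4) :=
          mul_le_mul h1 h2 (abs_nonneg _) zero_le_one
      _ = _ := by ring
  refine (avg_mono step).trans ?_
  rw [avg_mul_left]
  have hde : ∀ S, d < S.card → derc x c S = 0 := by
    intro S hS
    by_cases hxS : x ∈ S
    · simp [derc, hxS]
    · simp only [derc, hxS, if_false]
      apply hdeg
      rw [Finset.card_insert_of_notMem hxS]; omega
  have hb := bonami g (fun j => (hg j).mean) (fun j => (hg j).sq) (fun j => (hg j).cube)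
    (fun j => (hg j).four) Finset.univ d (derc x c)
    (fun S hS => absurd (Finset.subset_univ S) hS) hde
  calc 9 * ξ ^ 4 * avg (fun ω => ev (derc x c) (pt g ω) ^ 4)
      ≤ 9 * ξ ^ 4 * (9 ^ d * (∑ S, derc x c S ^ 2) ^ 2) :=
        mul_le_mul_of_nonneg_left hb (by positivity)
    _ = _ := by ring

/-- **Lindeberg replacement** -/
theorem lindeberg (g g' : X → Ω → ℝ) (hg : ∀ j, Good (g j)) (hg' : ∀ j, Good (g' j)) (d : ℕ)
    (c : Finset X → ℝ) (hdeg : ∀ S, d < S.card → c S = 0) (β ξ : ℝ) :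
    |avg (fun ω => Real.cos (β + ξ * ev c (pt g ω)))
      - avg (fun ω => Real.cos (β + ξ * ev c (pt g' ω)))|
      ≤ 9 * ξ ^ 4 * 9 ^ d * ∑ x, (∑ S, derc x c S ^ 2) ^ 2 := by
  classical
  have key : ∀ T : Finset X,
      |avg (fun ω => Real.cos (β + ξ * ev c (pt g ω)))
        - avg (fun ω => Real.cos (β + ξ * ev c (pt (fun x => if x ∈ T then g' x else g x) ω)))|
      ≤ 9 * ξ ^ 4 * 9 ^ d * ∑ x ∈ T, (∑ S, derc x c S ^ 2) ^ 2 := by
    intro T
    induction T using Finset.induction_on with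
    | empty => simp
    | insert x T hx ih =>
      have hs := swap_one (fun j => if j ∈ T then g' j else g j)
        (fun j => if j ∈ insert x T then g' j else g j) x
        (by
          intro j hj
          by_cases hjT : j ∈ T <;> simp [hjT, hj])
        (by intro j; by_cases hjT : j ∈ T <;> simp [hjT, hg, hg'])
        (by intro j; by_cases hjT : j ∈ insert x T <;> simp only [hjT, if_true, if_false, hg, hg'])
        d c hdeg β ξ
      rw [Finset.sum_insert hx, mul_add]
      rw [abs_le] at *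
      constructor <;> linarith [ih.1, ih.2, hs.1, hs.2]
  simpa using key Finset.univ

/-- total influence -/
lemma sum_derc (c : Finset X → ℝ) :
    ∑ x, ∑ S, derc x c S ^ 2 = ∑ S, (S.card : ℝ) * c S ^ 2 := by
  simp only [derc_sumsq, Finset.sum_filter]
  rw [Finset.sum_comm]
  refine Finset.sum_congr rfl fun S _ => ?_
  rw [← Finset.sum_filter]
  simp

theorem lindeberg' (g g' : X → Ω → ℝ) (hg : ∀ j, Good (g j)) (hg' : ∀ j, Good (g' j)) (d : ℕ)
    (c : Finset X → ℝ) (hdeg : ∀ S, d < S.card → c S = 0) (τ G : ℝ)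
    (hτ : ∀ x, ∑ S with x ∈ S, c S ^ 2 ≤ τ) (hG : ∑ S, (S.card : ℝ) * c S ^ 2 ≤ G)
    (hτ0 : 0 ≤ τ) (β ξ : ℝ) :
    |avg (fun ω => Real.cos (β + ξ * ev c (pt g ω)))
      - avg (fun ω => Real.cos (β + ξ * ev c (pt g' ω)))|
      ≤ 9 * ξ ^ 4 * 9 ^ d * (τ * G) := by
  refine (lindeberg g g' hg hg' d c hdeg β ξ).trans ?_
  refine mul_le_mul_of_nonneg_left ?_ (by positivity)
  calc ∑ x, (∑ S, derc x c S ^ 2) ^ 2 ≤ ∑ x, τ * ∑ S, derc x c S ^ 2 := by
        refine Finset.sum_le_sum fun x _ => ?_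
        have h1 : ∑ S, derc x c S ^ 2 ≤ τ := by rw [derc_sumsq]; exact hτ x
        have h2 : 0 ≤ ∑ S, derc x c S ^ 2 := Finset.sum_nonneg fun _ _ => sq_nonneg _
        rw [sq]
        exact mul_le_mul_of_nonneg_right h1 h2
    _ = τ * ∑ x, ∑ S, derc x c S ^ 2 := by rw [Finset.mul_sum]
    _ ≤ τ * G := by
        rw [sum_derc]
        exact mul_le_mul_of_nonneg_left hG hτ0

end Vale.Agent.P318.H766
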