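import Vale.Agent.P318.H766.Lind

/-! The rotation argument: a low-degree, low-influence polynomial on the cube whose sine
`sin (π P / 2)` is nearly `±1` valued cannot be balanced. -/

namespace Vale.Agent.P318.H766

open Finset

/-- sign of a bit -/
def sg (b : Bool) : ℝ := if b then -1 else 1

@[simp] lemma sg_true : sg true = -1 := rfl
@[simp] lemma sg_false : sg false = 1 := rfl

/-- the rotated sign -/
noncomputable def rot (θ : ℝ) (p : Bool × Bool) : ℝ := Real.cos θ * sg p.1 + Real.sin θ * sg p.2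

lemma avg_bool2 (f : Bool × Bool → ℝ) :
    avg f = (f (true, true) + f (true, false) + f (false, true) + f (false, false)) / 4 := by
  unfold avg
  rw [Fintype.sum_prod_type]
  simp [Fintype.card_prod]
  ring

lemma good_rot (θ : ℝ) : Good (rot θ) := by
  have hcs := Real.sin_sq_add_cos_sq θ
  constructor
  · rw [avg_bool2]; simp [rot]; ring
  · rw [avg_bool2]; simp [rot]; nlinarith
  · rw [avg_bool2]; simp [rot]; ring
  · rw [avg_bool2]
    simp only [rot, sg_true, sg_false]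
    have e : ((Real.cos θ * -1 + Real.sin θ * -1) ^ 4 + (Real.cos θ * -1 + Real.sin θ * 1) ^ 4 +
      (Real.cos θ * 1 + Real.sin θ * -1) ^ 4 + (Real.cos θ * 1 + Real.sin θ * 1) ^ 4) / 4
      = (Real.sin θ ^ 2 + Real.cos θ ^ 2) ^ 2 + 4 * (Real.sin θ ^ 2 * Real.cos θ ^ 2) := by ring
    rw [e, hcs]
    have h1 := Real.sin_sq_le_one θ
    have h2 := Real.cos_sq_le_one θ
    nlinarith [sq_nonneg (Real.sin θ), sq_nonneg (Real.cos θ)]
  · intro b
    rw [avg_bool2]
    simp only [rot, sg_true, sg_false]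
    have e1 : Real.sin (b * (Real.cos θ * -1 + Real.sin θ * -1))
        = - Real.sin (b * (Real.cos θ * 1 + Real.sin θ * 1)) := by
      rw [← Real.sin_neg]; congr 1; ring
    have e2 : Real.sin (b * (Real.cos θ * -1 + Real.sin θ * 1))
        = - Real.sin (b * (Real.cos θ * 1 + Real.sin θ * -1)) := by
      rw [← Real.sin_neg]; congr 1; ring
    rw [e1, e2]; ring

lemma avg_rot_mul (θ θ' : ℝ) : avg (fun p => rot θ p * rot θ' p) = Real.cos (θ - θ') := by
  rw [avg_bool2, Real.cos_sub]; simp only [rot, sg_true, sg_false]; ring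

variable {X : Type*} [Fintype X] [DecidableEq X]

/-- the point `cos θ z + sin θ z'` -/
noncomputable def rpt (θ : ℝ) (ω : X → Bool × Bool) : X → ℝ := pt (fun _ => rot θ) ω

lemma rpt_diff (c : Finset X → ℝ) (G : ℝ) (hG : ∑ S, (S.card : ℝ) * c S ^ 2 ≤ G) (θ θ' : ℝ) :
    avg (fun ω : X → Bool × Bool => (ev c (rpt θ ω) - ev c (rpt θ' ω)) ^ 2)
      ≤ (θ - θ') ^ 2 * G := by
  have cov : ∀ α β : ℝ, avg (fun ω : X → Bool × Bool => ev c (rpt α ω) * ev c (rpt β ω))
      = ∑ S, c S ^ 2 * Real.cos (α - β) ^ S.card := by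
    intro α β
    exact avg_ev_mul_ev (fun _ => rot α) (fun _ => rot β) _ (fun _ => (good_rot α).mean)
      (fun _ => (good_rot β).mean) (fun _ => avg_rot_mul α β) Finset.univ c
      (fun S hS => absurd (Finset.subset_univ S) hS)
  have e : (fun ω : X → Bool × Bool => (ev c (rpt θ ω) - ev c (rpt θ' ω)) ^ 2)
      = fun ω => (ev c (rpt θ ω) * ev c (rpt θ ω) + ev c (rpt θ' ω) * ev c (rpt θ' ω))
        - 2 * (ev c (rpt θ ω) * ev c (rpt θ' ω)) := by
    funext ω; ring
  rw [e, avg_sub, avg_add, avg_mul_left, cov, cov, cov]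
  simp only [sub_self, Real.cos_zero, one_pow, mul_one]
  have e2 : ∑ S, c S ^ 2 + ∑ S, c S ^ 2 - 2 * ∑ S, c S ^ 2 * Real.cos (θ - θ') ^ S.card
      = ∑ S, 2 * (c S ^ 2 * (1 - Real.cos (θ - θ') ^ S.card)) := by
    rw [Finset.mul_sum, ← Finset.sum_add_distrib, ← Finset.sum_sub_distrib]
    refine Finset.sum_congr rfl fun S _ => ?_
    ring
  rw [e2]
  calc ∑ S, 2 * (c S ^ 2 * (1 - Real.cos (θ - θ') ^ S.card))
      ≤ ∑ S, (θ - θ') ^ 2 * ((S.card : ℝ) * c S ^ 2) := by
        refine Finset.sum_le_sum fun S _ => ?_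
        have h1 : 1 + (S.card : ℝ) * (Real.cos (θ - θ') - 1)
            ≤ (1 + (Real.cos (θ - θ') - 1)) ^ S.card :=
          one_add_mul_le_pow (by have := Real.neg_one_le_cos (θ - θ'); linarith) _
        have h2 := Real.one_sub_sq_div_two_le_cos (x := θ - θ')
        have h3 : 1 - Real.cos (θ - θ') ^ S.card ≤ (S.card : ℝ) * ((θ - θ') ^ 2 / 2) := by
          have h4 : 1 + (Real.cos (θ - θ') - 1) = Real.cos (θ - θ') := by ring
          rw [h4] at h1
          have h5 : (S.card : ℝ) * (1 - Real.cos (θ - θ')) ≤ (S.card : ℝ) * ((θ - θ') ^ 2 / 2) :=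
            mul_le_mul_of_nonneg_left (by linarith) (Nat.cast_nonneg _)
          nlinarith
        have h6 : c S ^ 2 * (1 - Real.cos (θ - θ') ^ S.card)
            ≤ c S ^ 2 * ((S.card : ℝ) * ((θ - θ') ^ 2 / 2)) :=
          mul_le_mul_of_nonneg_left h3 (sq_nonneg _)
        nlinarith
    _ = (θ - θ') ^ 2 * ∑ S, (S.card : ℝ) * c S ^ 2 := by rw [Finset.mul_sum]
    _ ≤ (θ - θ') ^ 2 * G := mul_le_mul_of_nonneg_left hG (sq_nonneg _)

lemma key_ineq {u v : ℝ} (hu : |u| ≤ 1) (hv : |v| ≤ 1) :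
    |u - v| ≤ (u - v) ^ 2 / 2 + (1 - u ^ 2) + (1 - v ^ 2) := by
  have h1 : (u - v) ^ 2 / 2 + (1 - u ^ 2) + (1 - v ^ 2) = 2 - (u + v) ^ 2 / 2 := by ring
  rw [h1]
  rw [abs_le] at hu hv
  rw [abs_le]
  constructor <;> nlinarith [sq_nonneg (u + v), hu.1, hu.2, hv.1, hv.2]

end Vale.Agent.P318.H766
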