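import Vale.Agent.P318.H766.Rot

/-! The rotation theorem. -/

namespace Vale.Agent.P318.H766

open Finset

variable {X : Type*} [Fintype X] [DecidableEq X]

/-- the sign vector of a point of the cube -/
def spt (z : X → Bool) : X → ℝ := fun x => sg (z x)

omit [DecidableEq X] [Fintype X] in
lemma rpt_zero (ω : X → Bool × Bool) : rpt 0 ω = spt (fun x => (ω x).1) := by
  funext x; simp [rpt, pt, rot, spt]

omit [DecidableEq X] [Fintype X] in
lemma rpt_pi_half (ω : X → Bool × Bool) : rpt (Real.pi / 2) ω = spt (fun x => (ω x).2) := by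
  funext x; simp [rpt, pt, rot, spt]

lemma avg_pair (F H : (X → Bool) → ℝ) :
    avg (fun ω : X → Bool × Bool => F (fun x => (ω x).1) * H (fun x => (ω x).2))
      = avg F * avg H := by
  have h := avg_equiv (Equiv.arrowProdEquivProdArrow X (fun _ => Bool) (fun _ => Bool))
    (fun p => F p.1 * H p.2)
  have h2 : avg (fun ω : X → Bool × Bool => F (fun x => (ω x).1) * H (fun x => (ω x).2))
      = avg (fun p : (X → Bool) × (X → Bool) => F p.1 * H p.2) := by
    rw [← h]; rfl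
  rw [h2, avg_prod]
  simp only [avg_mul_left]
  rw [avg_mul_right]

lemma avg_fst (F : (X → Bool) → ℝ) :
    avg (fun ω : X → Bool × Bool => F (fun x => (ω x).1)) = avg F := by
  have := avg_pair F (fun _ => 1)
  simpa [avg_const] using this

lemma avg_snd (F : (X → Bool) → ℝ) :
    avg (fun ω : X → Bool × Bool => F (fun x => (ω x).2)) = avg F := by
  have := avg_pair (fun _ => 1) F
  simpa [avg_const] using this

lemma one_sub_sin_sq_half (u : ℝ) :
    1 - Real.sin (Real.pi / 2 * u) ^ 2 = (1 + Real.cos (0 + Real.pi * u)) / 2 := by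
  have h := Real.sin_sq_add_cos_sq (Real.pi / 2 * u)
  have h2 : Real.cos (0 + Real.pi * u) = 2 * Real.cos (Real.pi / 2 * u) ^ 2 - 1 := by
    rw [← Real.cos_two_mul]; congr 1; ring
  rw [h2]; linarith

lemma pi_pow_four_le : Real.pi ^ 4 ≤ 98 := by
  have h := Real.pi_lt_d4
  have h0 := Real.pi_pos
  have h2 : Real.pi ^ 2 ≤ 9.8988 := by nlinarith
  nlinarith [sq_nonneg Real.pi]

/-- **Rotation theorem.**  `P = ev c` of degree `≤ d`, total influence `≤ G`, influences `≤ τ`;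
`μ = E sin(πP/2)`, `δ = E (1 - sin²(πP/2))` on the cube.  Then for every `M ≥ 1`
`1 - μ² ≤ 4G/M + (2M+1)(δ + 9^(d+3) τ G)`. -/
theorem rotation (d : ℕ) (c : Finset X → ℝ) (hdeg : ∀ S, d < S.card → c S = 0) (τ G : ℝ)
    (hτ0 : 0 ≤ τ) (hτ : ∀ x, ∑ S with x ∈ S, c S ^ 2 ≤ τ)
    (hG : ∑ S, (S.card : ℝ) * c S ^ 2 ≤ G) (M : ℕ) (hM : 1 ≤ M) :
    1 - (avg fun z : X → Bool => Real.sin (Real.pi / 2 * ev c (spt z))) ^ 2
      ≤ 4 * G / M + (2 * M + 1) *
        ((avg fun z : X → Bool => 1 - Real.sin (Real.pi / 2 * ev c (spt z)) ^ 2)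
          + 9 ^ (d + 3) * (τ * G)) := by
  have hG0 : 0 ≤ G := le_trans (Finset.sum_nonneg fun S _ => by positivity) hG
  set μ := avg fun z : X → Bool => Real.sin (Real.pi / 2 * ev c (spt z)) with hμ
  set δ := avg fun z : X → Bool => 1 - Real.sin (Real.pi / 2 * ev c (spt z)) ^ 2 with hδ
  set err := (9:ℝ) ^ (d + 3) * (τ * G) with herr
  have herr0 : 0 ≤ err := by positivity
  -- φ at angle θ
  set φ : ℝ → (X → Bool × Bool) → ℝ := fun θ ω => Real.sin (Real.pi / 2 * ev c (rpt θ ω)) with hφ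
  have hφ1 : ∀ θ ω, |φ θ ω| ≤ 1 := fun θ ω => Real.abs_sin_le_one _
  -- Lindeberg
  have hlin : ∀ θ, avg (fun ω => 1 - φ θ ω ^ 2) ≤ δ + err := by
    intro θ
    have e0 : δ = avg (fun ω : X → Bool × Bool => 1 - φ 0 ω ^ 2) := by
      have := avg_fst (fun z : X → Bool => 1 - Real.sin (Real.pi / 2 * ev c (spt z)) ^ 2)
      rw [hδ, ← this]
      congr 1
      funext ω
      simp only [hφ, rpt_zero]
    have e1 : ∀ θ, avg (fun ω : X → Bool × Bool => 1 - φ θ ω ^ 2)
        = 1 / 2 + 1 / 2 * avg (fun ω : X → Bool × Bool =>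
            Real.cos (0 + Real.pi * ev c (rpt θ ω))) := by
      intro θ
      have : (fun ω : X → Bool × Bool => 1 - φ θ ω ^ 2)
          = fun ω => 1 / 2 + 1 / 2 * Real.cos (0 + Real.pi * ev c (rpt θ ω)) := by
        funext ω
        simp only [hφ]
        rw [one_sub_sin_sq_half]; ring
      rw [this, avg_add, avg_const, avg_mul_left]
    have hl := lindeberg' (fun _ : X => rot θ) (fun _ => rot 0) (fun _ => good_rot θ)
      (fun _ => good_rot 0) d c hdeg τ G hτ hG hτ0 0 Real.pi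
    have hb : (9:ℝ) * Real.pi ^ 4 * 9 ^ d * (τ * G) ≤ 2 * err := by
      have h1 := pi_pow_four_le
      have h2 : (0:ℝ) ≤ 9 ^ d * (τ * G) := by positivity
      have h3 : (9:ℝ) ^ (d + 3) = 729 * 9 ^ d := by rw [pow_add]; norm_num; ring
      rw [herr, h3]
      nlinarith [mul_le_mul_of_nonneg_right h1 h2]
    rw [e0, e1 θ, e1 0]
    have hl2 := (abs_le.1 (hl.trans hb)).2
    change avg (fun ω : X → Bool × Bool => Real.cos (0 + Real.pi * ev c (rpt θ ω)))
      - avg (fun ω : X → Bool × Bool => Real.cos (0 + Real.pi * ev c (rpt 0 ω))) ≤ 2 * err at hl2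
    linarith
  -- one step
  have hstep : ∀ θ θ' : ℝ, avg (fun ω => |φ θ ω - φ θ' ω|)
      ≤ Real.pi ^ 2 / 8 * ((θ - θ') ^ 2 * G) + 2 * (δ + err) := by
    intro θ θ'
    have h1 : ∀ ω, |φ θ ω - φ θ' ω| ≤
        (Real.pi ^ 2 / 8) * (ev c (rpt θ ω) - ev c (rpt θ' ω)) ^ 2
          + ((1 - φ θ ω ^ 2) + (1 - φ θ' ω ^ 2)) := by
      intro ω
      have h2 := key_ineq (hφ1 θ ω) (hφ1 θ' ω)
      have h3 : |φ θ ω - φ θ' ω| ≤ |Real.pi / 2 * (ev c (rpt θ ω) - ev c (rpt θ' ω))| := by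
        have := Real.abs_sin_sub_sin_le (Real.pi / 2 * ev c (rpt θ ω))
          (Real.pi / 2 * ev c (rpt θ' ω))
        rwa [← mul_sub] at this
      have h4 : (φ θ ω - φ θ' ω) ^ 2 ≤ (Real.pi / 2 * (ev c (rpt θ ω) - ev c (rpt θ' ω))) ^ 2 :=
        sq_le_sq.2 h3
      nlinarith
    refine (avg_mono h1).trans ?_
    rw [avg_add, avg_add, avg_mul_left]
    have h5 := rpt_diff c G hG θ θ'
    have h6 := hlin θ
    have h7 := hlin θ'
    have h8 : Real.pi ^ 2 / 8 * avg (fun ω : X → Bool × Bool =>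
        (ev c (rpt θ ω) - ev c (rpt θ' ω)) ^ 2) ≤ Real.pi ^ 2 / 8 * ((θ - θ') ^ 2 * G) :=
      mul_le_mul_of_nonneg_left h5 (by positivity)
    linarith
  -- telescoping
  have hMr : (0:ℝ) < M := by exact_mod_cast hM
  set α : ℝ := Real.pi / (2 * M) with hα
  have htel : ∀ k : ℕ, avg (fun ω => |φ 0 ω - φ (k * α) ω|)
      ≤ k * (Real.pi ^ 2 / 8 * (α ^ 2 * G) + 2 * (δ + err)) := by
    intro k
    induction k with
    | zero => simp [avg]
    | succ k ih =>
      have h1 : avg (fun ω => |φ 0 ω - φ ((k + 1 : ℕ) * α) ω|)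
          ≤ avg (fun ω => |φ 0 ω - φ (k * α) ω|)
            + avg (fun ω => |φ (k * α) ω - φ ((k + 1 : ℕ) * α) ω|) := by
        rw [← avg_add]
        exact avg_mono fun ω => abs_sub_le _ _ _
      have h2 := hstep (k * α) ((k + 1 : ℕ) * α)
      have h3 : ((k:ℝ) * α - ((k + 1 : ℕ) : ℝ) * α) ^ 2 = α ^ 2 := by push_cast; ring
      rw [h3] at h2
      have h4 : (((k + 1 : ℕ) : ℝ)) * (Real.pi ^ 2 / 8 * (α ^ 2 * G) + 2 * (δ + err))
          = k * (Real.pi ^ 2 / 8 * (α ^ 2 * G) + 2 * (δ + err))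
            + (Real.pi ^ 2 / 8 * (α ^ 2 * G) + 2 * (δ + err)) := by push_cast; ring
      rw [h4]
      linarith
  have hMα : (M:ℝ) * α = Real.pi / 2 := by
    rw [hα]; field_simp
  have hup := htel M
  rw [hMα] at hup
  -- lower bound
  have hlow : 1 - δ - μ ^ 2 ≤ avg (fun ω => |φ 0 ω - φ (Real.pi / 2) ω|) := by
    have h1 : ∀ ω, 1 / 2 * (φ 0 ω ^ 2 + φ (Real.pi / 2) ω ^ 2) - φ 0 ω * φ (Real.pi / 2) ω
        ≤ |φ 0 ω - φ (Real.pi / 2) ω| := by
      intro ω
      have h2 : |φ 0 ω - φ (Real.pi / 2) ω| ≤ 2 := by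
        have := abs_sub (φ 0 ω) (φ (Real.pi / 2) ω)
        linarith [hφ1 0 ω, hφ1 (Real.pi / 2) ω]
      have h3 : (φ 0 ω - φ (Real.pi / 2) ω) ^ 2 ≤ 2 * |φ 0 ω - φ (Real.pi / 2) ω| := by
        rw [← sq_abs]; nlinarith [abs_nonneg (φ 0 ω - φ (Real.pi / 2) ω)]
      nlinarith
    refine le_trans (le_of_eq ?_) (avg_mono h1)
    rw [avg_sub, avg_mul_left, avg_add]
    have e1 : avg (fun ω : X → Bool × Bool => φ 0 ω ^ 2) = 1 - δ := by
      have h4 := avg_fst (fun z : X → Bool => Real.sin (Real.pi / 2 * ev c (spt z)) ^ 2)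
      have h5 : (fun ω : X → Bool × Bool => φ 0 ω ^ 2) = fun ω =>
          (fun z : X → Bool => Real.sin (Real.pi / 2 * ev c (spt z)) ^ 2) (fun x => (ω x).1) := by
        funext ω; simp only [hφ, rpt_zero]
      rw [h5, h4, hδ, avg_sub, avg_const]; ring
    have e2 : avg (fun ω : X → Bool × Bool => φ (Real.pi / 2) ω ^ 2) = 1 - δ := by
      have h4 := avg_snd (fun z : X → Bool => Real.sin (Real.pi / 2 * ev c (spt z)) ^ 2)
      have h5 : (fun ω : X → Bool × Bool => φ (Real.pi / 2) ω ^ 2) = fun ω =>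
          (fun z : X → Bool => Real.sin (Real.pi / 2 * ev c (spt z)) ^ 2) (fun x => (ω x).2) := by
        funext ω; simp only [hφ, rpt_pi_half]
      rw [h5, h4, hδ, avg_sub, avg_const]; ring
    have e3 : avg (fun ω : X → Bool × Bool => φ 0 ω * φ (Real.pi / 2) ω) = μ ^ 2 := by
      have h4 := avg_pair (fun z : X → Bool => Real.sin (Real.pi / 2 * ev c (spt z)))
        (fun z : X → Bool => Real.sin (Real.pi / 2 * ev c (spt z)))
      rw [sq, hμ, ← h4]
      congr 1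
      funext ω; simp only [hφ, rpt_zero, rpt_pi_half]
    rw [e1, e2, e3]; ring
  have hfin : (M:ℝ) * (Real.pi ^ 2 / 8 * (α ^ 2 * G)) ≤ 4 * G / M := by
    have e : (M:ℝ) * (Real.pi ^ 2 / 8 * (α ^ 2 * G)) = Real.pi ^ 4 / 32 * (G / M) := by
      rw [hα]; field_simp; ring
    rw [e, mul_div_assoc]
    have h1 := pi_pow_four_le
    exact mul_le_mul_of_nonneg_right (by linarith) (by positivity)
  nlinarith [hup, hlow, hfin, mul_nonneg hMr.le herr0]

end Vale.Agent.P318.H766
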